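import Vale.Agent.P275NU.Blk
import Vale.Agent.P275AD.Gau
import Vale.Agent.P275MB.Nice
import Vale.Agent.P275GF.Der

/-!
# P275, block PRP: convergent representatives of convergent points
-/

set_option linter.unusedSectionVars false

open scoped Matrix.Norms.Operator Topology ContDiff
open Filter Set Matrix Metric
open Vale.Agent.P281Z.Hm (an_mul wd_mul wb_mul wb_hol wd_hol)
open Vale.Agent.P275GC Vale.Agent.P275GC.At Vale.Agent.P275MO
open Vale.Agent.P275NA (Fm Cy Mn CvC CvF dz db)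
open Vale.Agent.P275NU (Con PF Rel Cl)
open Vale.Agent.P275AD (hx hx_eq Agr exists_agr ev_off eq_of_ev ev_O good_an)
open Vale.Agent.P275Z (tauX)

noncomputable section

namespace Vale.Agent.P275NP

variable {C : Type} [TopologicalSpace C] {A : At C} {n : ℕ} {l : Cy A ℂ} {z : Dat C A.N n}
  {i j : Fin A.N} {w : ℂ} {a : Fm A (Mn n)}

/-- the connection matrices, extended over the pole -/
def ea (A : At C) (z : Dat C A.N n) : Fm A (Mn n) := fun i => hx (z.a i)

theorem agr_ea (g : Good A l z) : Agr A z (ea A z) :=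
  fun _ _ hw => hx_eq (good_an g hw).continuousAt EventuallyEq.rfl

theorem hl_ea (g : Good A l z) (hR : z.R = 0) : A.Hl (ea A z) := by
  obtain ⟨a, b, c⟩ := exists_agr g hR
  exact fun i => (b i).congr fun w hw =>
    hx_eq (b.an hw i).continuousAt (EventuallyEq.symm (c.ev hw))

theorem con_of_agr (g : Good A l z) (hl : A.Cc l) (h : Agr A z a) (ha : A.Hl a) :
    Con A l z.lam z.g a := by
  refine ⟨g.cc, g.det, ha, fun i w hw => h.trace ha g hw, fun i j w hw =>
    ⟨(n : ℂ)⁻¹ * (z.lam * (deriv (l i j) w / l i j w)), ?_⟩⟩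
  have p := g.cc.an hw
  have q1 : ContinuousAt (fun y => a i y * z.g i j y) w := (an_mul (ha.an hw.1 i) p).continuousAt
  have q2 : ContinuousAt (fun y => z.lam • deriv (z.g i j) y) w :=
    p.deriv.continuousAt.const_smul z.lam
  have q0 : AnalyticAt ℂ (fun y => a j (A.tr i j y)) w :=
    AnalyticAt.comp (f := A.tr i j) (ha.an (tr_ball hw) j) (an_tr hw)
  have q3 : ContinuousAt (fun y => A.d i j y • (z.g i j y * a j (A.tr i j y))) w :=
    (an_d hw).continuousAt.smul (an_mul p q0).continuousAt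
  have q5 : ContinuousAt (fun y => (n : ℂ)⁻¹ * (z.lam * (deriv (l i j) y / l i j y))) w :=
    continuousAt_const.mul (continuousAt_const.mul ((hl.an hw).deriv.continuousAt.div
      (hl.an hw).continuousAt (hl.ne hw)))
  have q4 : ContinuousAt
      (fun y => ((n : ℂ)⁻¹ * (z.lam * (deriv (l i j) y / l i j y))) • z.g i j y) w :=
    q5.smul p.continuousAt
  refine eq_of_ev (f := fun y => a i y * z.g i j y + z.lam • deriv (z.g i j) y)
    (g := fun y => A.d i j y • (z.g i j y * a j (A.tr i j y)) +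
      ((n : ℂ)⁻¹ * (z.lam * (deriv (l i j) y / l i j y))) • z.g i j y) (q1.add q2) (q3.add q4) ?_
  filter_upwards [ev_off (i := i) z.x hw.1, ev_O hw] with y e1 e2
  rw [h i y e1, h j _ (P275MB.off_tr e2 e1.2), P275MB.Good.law' g e2 e1.2]

theorem cl_ea {r : ℝ} {h1 : 1 < r} {h2 : r ≤ A.R} (hl : A.Cc l) (z : Ob A l (tauX n))
    (g : Good (A.res r h1 h2) l z.1) : Cl z.pt r h1 h2 z.1.g (ea A z.1) :=
  ⟨con_of_agr g hl.res (agr_ea g) (hl_ea g ((Submodule.mem_bot ℂ).1 z.2.2)),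
    z, rfl, g, rfl, fun i w hw => (agr_ea g i w hw).symm⟩

theorem fam_ea [T2Space C] {T : Type} [TopologicalSpace T] {F : T → Dat C A.N n} {V : Set T}
    (f : FamOn A l F V) (hR : ∀ t ∈ V, (F t).R = 0) (i : Fin A.N) :
    ContinuousOn (fun p : T × ℂ => ea A (F p.1) i p.2) (V ×ˢ ball 0 A.R) := by
  rintro ⟨t, w⟩ ⟨ht, hw⟩
  obtain ⟨δ, d0, d1⟩ := Metric.nhds_basis_closedBall.mem_iff.1 (isOpen_ball.mem_nhds hw)
  obtain ⟨ρ, ⟨r0, r1⟩, r2⟩ := ((Set.Ioo_infinite d0).sdiff
    (finite_singleton (dist (A.e i (F t).x) w))).nonempty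
  have sb : closedBall w ρ ⊆ ball 0 A.R := (closedBall_subset_closedBall r1.le).trans d1
  refine (P275MB.cw_of_sphere (u := fun s => ea A (F s) i) r0 ht (fun s a =>
    (hl_ea (f.good s a) (hR s a) i).diffContOnCl_ball sb) fun y hy => ?_).mono
    (prod_mono Subset.rfl (subset_univ _))
  have hb := sb (sphere_subset_closedBall hy)
  have ho : y ∈ off A (F t).x i := ⟨hb, fun a => r2 (by rw [← a, rinv hb]; exact hy.symm)⟩
  refine ⟨((hl_ea (f.good t ht) (hR t ht)).an hb i).continuousAt, ?_⟩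
  have p : ContinuousWithinAt (fun p : T × ℂ => ((A.e i).symm p.2, (F p.1).x)) (V ×ˢ univ) (t, y) :=
    ((contAt_symm hb).comp_continuousWithinAt (f := Prod.snd) (x := (t, y))
      continuousWithinAt_snd).prodMk (ContinuousWithinAt.comp (f := Prod.fst) (x := (t, y))
        (f.x t ht) continuousWithinAt_fst fun _ a => a.1)
  have e : ∀ᶠ p : T × ℂ in 𝓝[V ×ˢ univ] (t, y), p.1 ∈ V ∧ p.2 ∈ off A (F p.1).x i := by
    filter_upwards [self_mem_nhdsWithin, p.eventually (isClosed_diagonal.isOpen_compl.mem_nhds ho.2),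
      continuousWithinAt_snd.eventually (isOpen_ball.mem_nhds hb)] with q a b c
    exact ⟨a.1, c, b⟩
  exact ((f.a i (t, y) ⟨ht, ho⟩).mono_of_mem_nhdsWithin e).congr_of_eventuallyEq
    (e.mono fun q a => agr_ea (f.good _ a.1) i _ a.2) (agr_ea (f.good _ ht) i _ ho)

/-- convergent representatives -/
theorem exists_reps [T2Space C] (k : KUR n A l) {ys : ℕ → Mod A l (tauX n)}
    {y : Mod A l (tauX n)} (h : Tendsto ys atTop (𝓝 y)) : ∃ (r : ℝ) (h1 : 1 < r) (h2 : r ≤ A.R)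
      (N : ℕ) (zs : ℕ → Ob A l (tauX n)) (z : Ob A l (tauX n)),
      (∀ m, (zs m).pt = ys (m + N) ∧ Good (A.res r h1 h2) l (zs m).1) ∧ z.pt = y ∧
      Good (A.res r h1 h2) l z.1 ∧ CvC (A.res r h1 h2) (fun m => (zs m).1.g) z.1.g ∧
      CvF (A.res r h1 h2) (fun m => ea A (zs m).1) (ea A z.1) := by
  obtain ⟨K, hK⟩ := k (tauX n) y
  obtain ⟨N, hN⟩ := eventually_atTop.1 (h.eventually (K.e.open_source.mem_nhds hK))
  have m : ∀ m, ys (m + N) ∈ K.e.source := fun m => hN _ (Nat.le_add_left _ _)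
  have f := P275MB.famOn_chart K
  have t : Tendsto (fun m => ys (m + N)) atTop (𝓝[K.e.source] y) :=
    tendsto_nhdsWithin_iff.2 ⟨h.comp (tendsto_add_atTop_nat N), Eventually.of_forall m⟩
  refine ⟨K.r, K.h1, K.h2, N, fun k => P275MB.cob K _ (m k), P275MB.cob K y hK,
    fun k => ⟨P275MB.cob_pt K _, f.good _ (m k)⟩, P275MB.cob_pt K _, f.good _ hK,
    fun i j u hu x hx => ?_, fun i u hu x hx => ?_⟩
  · obtain ⟨s, a, b⟩ := P275GF.tlu_fam (f := fun s => (K.F (K.e s)).g i j) hK (f.g i j) u hu x hx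
    exact ⟨s, a, t.eventually b⟩
  · obtain ⟨s, a, b⟩ := P275GF.tlu_fam (f := fun s => ea A (K.F (K.e s)) i) hK (fam_ea f
      (fun s hs => (Submodule.mem_bot ℂ).1 (K.ob _ (K.e.map_source hs)).2) i) u hu x hx
    exact ⟨s, a, t.eventually b⟩

/-! ### smaller discs, composition -/

section mono
variable {r r' : ℝ} {h1 : 1 < r} {h2 : r ≤ A.R} {lam : ℂ} {g g' g'' : Cy A (Mn n)}
  {h G a' a'' ψ : Fm A (Mn n)}

theorem con_mono (c : Con (A.res r h1 h2) l lam g a) (h1' : 1 < r') (h3 : r' ≤ r) :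
    Con (A.res r' h1' (h3.trans h2)) l lam g a :=
  (P275MB.rr h1' h3 fun B => Con (B.at h1') l lam g a).1
    (show Con ((A.res r h1 h2).res r' h1' h3) l lam g a from
      ⟨c.cc.res, fun i j w e => c.det i j w (res_O.1 e).1, c.hol.res,
        fun i w e => c.tr i w (ball_subset_ball h3 e), fun i j w e => c.law i j w (res_O.1 e).1⟩)

theorem mtm_mono {N : WithTop ℕ∞} (c : (A.res r h1 h2).MtM N g h) (h1' : 1 < r') (h3 : r' ≤ r) :
    (A.res r' h1' (h3.trans h2)).MtM N g h :=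
  (P275MB.rr h1' h3 fun B => (B.at h1').MtM N g h).1 (c.res (h1 := h1') (h2 := h3))

theorem rel_mono (c : Rel (A.res r h1 h2) lam g a h G g' a') (h1' : 1 < r') (h3 : r' ≤ r) :
    Rel (A.res r' h1' (h3.trans h2)) lam g a h G g' a' :=
  (P275MB.rr h1' h3 fun B => Rel (B.at h1') lam g a h G g' a').1
    (show Rel ((A.res r h1 h2).res r' h1' h3) lam g a h G g' a' from
      ⟨c.sm.res, fun i w e => c.ne i w (ball_subset_ball h3 e),
        fun i w e => c.db i w (ball_subset_ball h3 e), fun i w e => c.dz i w (ball_subset_ball h3 e),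
        fun i j w e => c.tr i j w (res_O.1 e).1⟩)

/-- `ψ : (g, a) → (g', a')` is a horizontal isomorphism -/
structure Hi (A : At C) (lam : ℂ) (g : Cy A (Mn n)) (a : Fm A (Mn n)) (g' : Cy A (Mn n))
    (a' ψ : Fm A (Mn n)) : Prop where
  hol : A.Hl ψ
  ne : ∀ i, ∀ w ∈ ball (0 : ℂ) A.R, (ψ i w).det ≠ 0
  law : ∀ i j, ∀ w ∈ A.O i j, ψ i w * g i j w = g' i j w * ψ j (A.tr i j w)
  con : ∀ i, ∀ w ∈ ball (0 : ℂ) A.R, lam • deriv (ψ i) w + a' i w * ψ i w = ψ i w * a i w

theorem rel_comp (c : Rel A lam g a h G g' a') (f : Hi A lam g'' a'' g' a' ψ) :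
    Rel A lam g a h (fun i w => G i w * ψ i w) g'' a'' := by
  have d : ∀ i, ∀ w ∈ ball (0 : ℂ) A.R, DifferentiableAt ℝ (G i) w := fun i w e =>
    (c.sm.at e i).differentiableAt (by simp)
  refine ⟨fun i w e => (P275HK.cd_mul (c.sm.at e i) (cd_an (f.hol.an e i))).contDiffWithinAt,
    fun i w e => (Matrix.det_mul _ _).trans_ne (mul_ne_zero (c.ne i w e) (f.ne i w e)),
    fun i w e => ?_, fun i w e => ?_, fun i j w e => ?_⟩
  · rw [db, wb_mul (d i w e) (P275HK.hol_df (f.hol.an e i)), wb_hol (f.hol.an e i).differentiableAt,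
      Matrix.mul_zero, add_zero, ← Matrix.mul_assoc, ← Matrix.smul_mul, ← Matrix.add_mul,
      c.db i w e, Matrix.zero_mul]
  · rw [dz, wd_mul (d i w e) (P275HK.hol_df (f.hol.an e i)), Matrix.mul_assoc (G i w), ← f.con i w e,
      Matrix.mul_add, ← Matrix.mul_assoc (G i w), ← c.dz i w e,
      show P281Z.Hm.wd 1 (ψ i) w = _ from P275HK.dz_hol (f.hol.an e i).differentiableAt]
    simp only [smul_add, Matrix.add_mul, Matrix.mul_smul, Matrix.smul_mul, Matrix.mul_assoc]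
    simp only [add_comm, add_left_comm, dz]
    rfl
  · rw [← Matrix.mul_assoc, c.tr i j w e, Matrix.mul_assoc, ← f.law i j w e, Matrix.mul_assoc]

/-- two representatives of a point are isomorphic on small discs -/
theorem cl_iso {y : Mod A l (tauX n)} {h1' : 1 < r'} {h2' : r' ≤ A.R} (c : Cl y r h1 h2 g a)
    (c' : Cl y r' h1' h2' g' a') {s : ℝ} (s1 : 1 < s) (s2 : s ≤ r) (s3 : s ≤ r') :
    ∃ ψ, Hi (A.res s s1 (s2.trans h2)) y.lam g a g' a' ψ := by
  obtain ⟨c, z, rfl, gd, rfl, e⟩ := c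
  obtain ⟨c', z', ez, gd', rfl, e'⟩ := c'
  obtain ⟨ψ, _, _, f⟩ := (P275MB.pt_eq_iff' (P275MB.Good.mono gd s1 s2)
    (P275MB.Good.mono gd' s1 s3)).1 ez.symm
  refine ⟨ψ, f.hol, f.det, f.law, fun i w hw => ?_⟩
  have p := f.hol.an hw i
  have q := c.hol.an (ball_subset_ball s2 hw) i
  have q' := c'.hol.an (ball_subset_ball s3 hw) i
  have q1 : ContinuousAt (fun u => z.1.lam • deriv (ψ i) u) w :=
    p.deriv.continuousAt.const_smul z.1.lam
  have q2 : ContinuousAt (fun u => a' i u * ψ i u) w := (an_mul q' p).continuousAt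
  have q3 : ContinuousAt (fun u => ψ i u * a i u) w := (an_mul p q).continuousAt
  refine eq_of_ev (f := fun u => z.1.lam • deriv (ψ i) u + a' i u * ψ i u)
    (g := fun u => ψ i u * a i u) (q1.add q2) q3 ?_
  filter_upwards [ev_off (A := A.res s s1 (s2.trans h2)) (i := i) z.1.x hw] with u b
  rw [← e i u ⟨ball_subset_ball s2 b.1, b.2⟩, ← e' i u ⟨ball_subset_ball s3 b.1, f.x ▸ b.2⟩,
    f.con i u b]

end mono

end Vale.Agent.P275NP
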