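import Vale.Agent.P275NP.Rep
import Vale.Agent.P275NU.Rel
import Vale.Agent.P275HK.Inj
import Vale.Agent.P275KR.Noi
import Vale.Agent.P275KR.Frm

/-!
# P275, block NU: stability of the connection, uniqueness, injectivity
-/

set_option linter.unusedSectionVars false

open scoped Matrix.Norms.Operator Topology ContDiff
open Filter Set Matrix Metric
open Vale.Agent.P275GC Vale.Agent.P275GC.At Vale.Agent.P275MO
open Vale.Agent.P275NA (Fm Cy Mn)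
open Vale.Agent.P275NU (Con PF Rel Cl NuR MK CH)
open Vale.Agent.P275Z (tauX)

noncomputable section

namespace Vale.Agent.P275NP

variable {C : Type} [TopologicalSpace C] {A : At C} {n : ℕ} {l : Cy A ℂ} {lam : ℂ}
  {g g' : Cy A (Mn n)} {a h G a' ψ : Fm A (Mn n)} {d : ℤ}

theorem Hi.ch (f : Hi A lam g a g' a' ψ) : CH A lam g a g' a' ψ := ⟨f.hol, f.law, f.con, f.ne⟩

theorem hi_of (f : CH A lam g a g' a' ψ) : Hi A lam g a g' a' ψ := ⟨f.hol, f.ne, f.law, f.con⟩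

/-- at `λ = 0` the relation is an isomorphism of Higgs bundles -/
theorem hi_zero (c : Rel A 0 g a h G g' a') : Hi A 0 g' a' g a G :=
  ⟨fun i w e => (P275GC.hol_of_db ((c.sm.at e i).differentiableAt (by simp)) (by
      simpa only [zero_smul, add_zero] using c.db i w e)).differentiableWithinAt, c.ne,
    fun i j w e => (c.tr i j w e).symm,
    fun i w e => by simpa only [zero_smul, zero_add] using c.dz i w e⟩

/-- **MK** -/
theorem mk (S : Std A l n d) : MK A n l := by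
  rintro _ r h1 h2 _ a h G z' y0 ex ⟨-, z, rfl, gz, rfl, e⟩ R g' hR
  have := S.t2
  have := S.conn
  refine ⟨⟨r, h1, h2, g', ?_⟩, (Submodule.mem_bot ℂ).2 hR⟩
  by_cases h0 : z'.lam = 0
  · rw [h0] at R
    have f := hi_zero R
    refine P275MB.Stab.iso (φ := G) g' gz ⟨y0.trans h0.symm, ex.symm, f.hol, f.law,
      fun i w b => ?_⟩ f.ne (P275MB.IsOb.stab z.2 gz)
    rw [h0, e i w ⟨b.1, (show z'.x = z.1.x from ex) ▸ b.2⟩]
    exact f.con i w b.1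
  · intro k V k0 kn hV hI
    have p := P275KR.noi (A.res r h1 h2) n l z' k V g' h0 hR hV hI
    obtain ⟨m, hm⟩ := P275KR.degS_int' g'.cc hV
    rw [hm, res_deg, S.deg] at p
    have q : (n : ℤ) * m = k * d := by exact_mod_cast p
    exact absurd (Int.le_of_dvd (by exact_mod_cast k0)
      (S.cop.dvd_of_dvd_mul_right ⟨m, q.symm⟩)) (by exact_mod_cast kn.not_ge)

section pts
variable {r r' s : ℝ} {h1 : 1 < r} {h2 : r ≤ A.R} {h1' : 1 < r'} {h2' : r' ≤ A.R}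
  {y y' : Mod A l (tauX n)}

theorem cl_mono (c : Cl y r h1 h2 g a) (s1 : 1 < s) (s2 : s ≤ r) :
    Cl y s s1 (s2.trans h2) g a := by
  obtain ⟨c, z, e, gd, p, q⟩ := c
  exact ⟨con_mono c s1 s2, z, e, P275MB.Good.mono gd s1 s2, p,
    fun i w b => q i w ⟨ball_subset_ball s2 b.1, b.2⟩⟩

/-- isomorphic representatives give the same point -/
theorem pt_of_hi (c : Cl y r h1 h2 g a) (c' : Cl y' r h1 h2 g' a') (el : y'.lam = y.lam)
    (ex : y'.x = y.x) (f : Hi (A.res r h1 h2) y.lam g a g' a' ψ) : y = y' := by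
  obtain ⟨-, z, rfl, gd, rfl, e⟩ := c
  obtain ⟨-, z', rfl, gd', rfl, e'⟩ := c'
  obtain ⟨i, b, -⟩ := (A.res r h1 h2).cov z.1.x
  refine (P275MB.pt_eq_iff' gd gd').2 ⟨ψ, _, Algebra.mem_top, P275MB.Hom.isoBy gd gd'
    ⟨el, ex, f.hol, f.law, fun i w b => ?_⟩ f.ne b⟩
  rw [e i w b, e' i w ⟨b.1, (show z'.1.x = z.1.x from ex) ▸ b.2⟩]
  exact f.con i w b.1

/-- the data of the relation, on all small discs -/
theorem nur_small (H : NuR y y') : ∃ (r : ℝ) (_ : 1 < r) (h2 : r ≤ A.R) (g g' : Cy A (Mn n))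
    (a h G a' : Fm A (Mn n)), ∀ (s : ℝ) (s1 : 1 < s) (s2 : s ≤ r),
      Cl y s s1 (s2.trans h2) g a ∧ Cl y' s s1 (s2.trans h2) g' a' ∧
      Con (A.res s s1 (s2.trans h2)) l 0 g a ∧ (A.res s s1 (s2.trans h2)).MtM ∞ g h ∧
      PF (A.res s s1 (s2.trans h2)) a h ∧ Rel (A.res s s1 (s2.trans h2)) y'.lam g a h G g' a' := by
  obtain ⟨y0, -, r, h1, h2, g, g', a, h, G, a', c, c', m, p, R⟩ := H
  exact ⟨r, h1, h2, g, g', a, h, G, a', fun s s1 s2 => ⟨cl_mono c s1 s2, cl_mono c' s1 s2,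
    y0 ▸ con_mono c.1 s1 s2, mtm_mono m s1 s2, p.mono s1 s2, rel_mono R s1 s2⟩⟩

variable [T2Space C] {y₁ y₂ : Mod A l (tauX n)}

/-- the connection is determined by the Higgs bundle -/
theorem nur_uniq (hn : 0 < n) (H₁ : NuR y y₁) (H₂ : NuR y y₂) (el : y₂.lam = y₁.lam) :
    y₁ = y₂ := by
  obtain ⟨r₁, p₁, q₁, g₁, g₁', a₁, h₁, G₁, a₁', K₁⟩ := nur_small H₁
  obtain ⟨r₂, p₂, q₂, g₂, g₂', a₂, h₂, G₂, a₂', K₂⟩ := nur_small H₂
  have s1 := lt_min p₁ p₂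
  obtain ⟨c₁, c₁', o₁, m₁, f₁, R₁⟩ := K₁ _ s1 (min_le_left _ _)
  obtain ⟨c₂, c₂', o₂, m₂, f₂, R₂⟩ := K₂ _ s1 (min_le_right _ _)
  obtain ⟨φ, f⟩ := cl_iso c₁ c₂ s1 le_rfl le_rfl
  rw [H₁.1] at f
  rw [el] at R₂
  exact pt_of_hi c₁' c₂' el (H₂.2.1.trans H₁.2.1.symm) (hi_of (P275NU.Rel.ch R₁ R₂ f.ch fun _ =>
    P275HK.par (A.res _ s1 ((min_le_left _ _).trans q₁)) n l g₁ g₂ a₁ h₁ a₂ h₂ φ hn o₁ o₂ m₁ m₂
      f₁ f₂ f.ch.hom))

/-- the Higgs bundle is determined by the connection -/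
theorem nur_inj (hn : 0 < n) (H₁ : NuR y₁ y) (H₂ : NuR y₂ y) (h0 : y.lam ≠ 0) : y₁ = y₂ := by
  obtain ⟨r₁, p₁, q₁, g₁, g₁', a₁, h₁, G₁, a₁', K₁⟩ := nur_small H₁
  obtain ⟨r₂, p₂, q₂, g₂, g₂', a₂, h₂, G₂, a₂', K₂⟩ := nur_small H₂
  have s1 := lt_min p₁ p₂
  obtain ⟨c₁, c₁', o₁, m₁, -, R₁⟩ := K₁ _ s1 (min_le_left _ _)
  obtain ⟨c₂, c₂', o₂, m₂, -, R₂⟩ := K₂ _ s1 (min_le_right _ _)
  obtain ⟨φ, f⟩ := cl_iso c₁' c₂' s1 le_rfl le_rfl
  have R := rel_comp R₂ f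
  have u := P275HK.inj (A.res _ s1 ((min_le_left _ _).trans q₁)) n l y.lam g₁ g₂ g₁' a₁ h₁ G₁ a₂ h₂
    _ a₁' hn h0 o₁ o₂ m₁ m₂ R₁ R
  refine pt_of_hi c₁ c₂ (H₂.1.trans H₁.1.symm) (H₂.2.1.symm.trans H₁.2.1)
    (H₁.1 ▸ hi_of (P275NU.ch_of u fun i w b => ?_))
  rw [Matrix.det_mul]
  exact mul_ne_zero (R.ne i w b) (isUnit_nonsing_inv_det _ (R₁.ne i w b).isUnit).ne_zero

/-- at `λ = 0` the relation is the identity -/
theorem nur_zero (H : NuR y y') (h0 : y'.lam = 0) : y' = y := by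
  obtain ⟨y0, ex, r, h1, h2, g, g', a, h, G, a', c, c', -, -, R⟩ := H
  rw [h0] at R
  exact pt_of_hi c' c (y0.trans h0.symm) ex.symm (h0 ▸ hi_zero R)

end pts

end Vale.Agent.P275NP
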