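import Vale.Agent.P275NP.Prp
import Vale.Agent.P275NP.Uq
import Vale.Agent.P275NT.Main
import Vale.Agent.P275LM.Fin

/-!
# P275, block NU: assembly
-/

set_option linter.unusedSectionVars false

open scoped Topology
open Filter Set
open Vale.Agent.P275GC Vale.Agent.P275MO
open Vale.Agent.P275NA (Cy)
open Vale.Agent.P275NU (NuR CONT HSQ NU Sl)
open Vale.Agent.P275Z (tauX)

noncomputable section

namespace Vale.Agent.P275NP

variable {C : Type} [TopologicalSpace C] {A : At C} {n : ℕ} {l : Cy A ℂ} {d : ℤ}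

theorem nur_ex (c : CONT A n l) (lam : ℂ) {y : Mod A l (tauX n)} (h : y.lam = 0) :
    ∃ z : Mod A l (tauX n), z.lam = lam ∧ NuR y z := by
  obtain ⟨_, _, z, -, -, a, b, -⟩ := c (fun _ => lam) lam (fun _ => y) y (fun _ => h)
    tendsto_const_nhds tendsto_const_nhds
  exact ⟨z, a, b⟩

/-- **NU** -/
theorem nu (S : Std A l n d) (k : KUR n A l) (c : CONT A n l) (q : HSQ A n l) : NU A n l := by
  have := S.t2
  have nice := P275MB.nice' S k
  have hn : 0 < n := two_pos.trans_le S.two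
  have := (nice (tauX n)).2.2
  have : SecondCountableTopology (Sl A n l 0) :=
    Topology.IsInducing.subtypeVal.secondCountableTopology
  have : FrechetUrysohnSpace (ℂ × Sl A n l 0) := inferInstance
  choose F f1 f2 using fun p : ℂ × Sl A n l 0 => nur_ex c p.1 p.2.2
  have u : ∀ p y', y'.lam = p.1 → NuR p.2.1 y' → F p = y' := fun p y' a b =>
    nur_uniq hn (f2 p) b (a.trans (f1 p).symm)
  have ct : Continuous F := continuous_iff_seqContinuous.2 fun p p₀ hp =>
    tendsto_of_subseq_tendsto fun ns hs => by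
      obtain ⟨σ, zs, z, -, a, b, e, t⟩ := c (fun m => (p (ns m)).1) p₀.1 (fun m => (p (ns m)).2.1)
        p₀.2.1 (fun m => (p (ns m)).2.2) ((continuous_fst.tendsto _).comp (hp.comp hs))
        (((continuous_subtype_val.comp continuous_snd).tendsto _).comp (hp.comp hs))
      refine ⟨σ, ?_⟩
      rw [u p₀ z b e]
      exact t.congr fun m => (u _ _ (a m).1 (a m).2).symm
  have z0 : ∀ y, F (0, y) = y.1 := fun y => nur_zero (f2 (0, y)) (f1 _)
  have hh := P275NT.topo A n l k nice (P275LM.lim_nu S) ⟨F, ct⟩ (fun y => ⟨F (1, y), f1 _⟩)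
    (fun _ _ => f1 _) z0 (fun _ => rfl) (fun y y' e => Subtype.ext (nur_inj hn (f2 (1, y))
      ((show F (1, y') = F (1, y) from congrArg Subtype.val e.symm) ▸ f2 (1, y') :)
      ((f1 (1, y)).trans_ne one_ne_zero)))
    fun y y' t => by
      obtain ⟨σ, y₀, a, b⟩ := prp hn S.cc k q (fun m => (y m).1) (fun m => F (1, y m)) y'.1
        (fun m => ⟨f1 _, f2 (1, y m)⟩) ((continuous_subtype_val.tendsto _).comp t)
      exact ⟨σ, ⟨y₀, tendsto_nhds_unique ((P275MB.cont_lam.tendsto _).comp b)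
        (tendsto_const_nhds.congr fun m => (y (σ m)).2.symm)⟩, a, tendsto_subtype_rng.2 b⟩
  exact ⟨⟨F, ct⟩, hh.homeomorph, fun lam y y' => ⟨fun e => e ▸ ⟨f1 (lam, y), f2 (lam, y)⟩,
    fun e => u (lam, y) y' e.1 e.2⟩, z0, fun _ => rfl⟩

end Vale.Agent.P275NP
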