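import Vale.Agent.P275NP.Rep
import Vale.Agent.P275HK.Bnd

/-!
# P275, block PRP: properness of the nonabelian Hodge map
-/

set_option linter.unusedSectionVars false

open scoped Matrix.Norms.Operator Topology ContDiff ComplexOrder
open Filter Set Matrix Metric MeasureTheory
open Vale.Agent.P275GC Vale.Agent.P275GC.At Vale.Agent.P275MO
open Vale.Agent.P275NA (Fm Cy Mn CvC CvF nq cn)
open Vale.Agent.P275NU (Con PF Rel Cl NuR HSQ PRP)
open Vale.Agent.P275HK (eng_rel nq_le_int con_hig dn_nq coeff_nq ct_en cq_mtM cq_tf)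
open Vale.Agent.P275Z (tauX)

noncomputable section

namespace Vale.Agent.P275NP

variable {C : Type} [TopologicalSpace C] {A : At C} {n : ℕ} {l : Cy A ℂ}

/-- the energy of a connection for the canonical metric -/
def en (A : At C) (g : Cy A (Mn n)) (a : Fm A (Mn n)) : ℝ :=
  A.int fun i z => nq (A.mtM g i z) (A.mtM g i z) (tf (a i z - cn (A.mtM g i) z))

theorem en_res {r : ℝ} {h1 : 1 < r} {h2 : r ≤ A.R} (g : Cy A (Mn n)) (a : Fm A (Mn n)) :
    en (A.res r h1 h2) g a = en A g a :=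
  (congrArg (fun H : Fm A (Mn n) => (A.res r h1 h2).int fun i z =>
    nq (H i z) (H i z) (tf (a i z - cn (H i) z))) (res_mtM g)).trans (res_int _)

/-- every point of a closed unit disc lies well inside some unit disc -/
theorem ex_in (A : At C) : ∃ δ : ℝ, 0 < δ ∧ ∀ i, ∀ w ∈ closedBall (0 : ℂ) 1, ∃ j, w ∈ A.O i j ∧
    ‖A.tr i j w‖ + δ < 1 ∧ δ * Complex.normSq (A.d i j w) < 1 := by
  have e : ∀ᶠ δ : ℝ in 𝓝 0, ∀ i, ∀ w ∈ closedBall (0 : ℂ) 1, ∃ j, w ∈ A.O i j ∧
      ‖A.tr i j w‖ + δ < 1 ∧ δ * Complex.normSq (A.d i j w) < 1 := by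
    refine eventually_all.2 fun i => (isCompact_closedBall 0 1).eventually_forall_of_forall_eventually
      fun w hw => ?_
    obtain ⟨j, a, b⟩ := A.cov ((A.e i).symm w)
    have o : w ∈ A.O i j := ⟨A.unit_sub hw, a⟩
    have c1 : ContinuousAt (fun p : ℝ × ℂ => ‖A.tr i j p.2‖ + p.1) (0, w) :=
      ((an_tr o).continuousAt.comp (f := Prod.snd) (x := ((0 : ℝ), w)) continuousAt_snd).norm.add
        continuousAt_fst
    have c2 : ContinuousAt (fun p : ℝ × ℂ => p.1 * Complex.normSq (A.d i j p.2)) (0, w) :=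
      continuousAt_fst.mul (Complex.continuous_normSq.continuousAt.comp
        ((an_d o).continuousAt.comp (f := Prod.snd) (x := ((0 : ℝ), w)) continuousAt_snd))
    filter_upwards [continuousAt_snd.eventually (O_nhds o),
      c1.eventually_lt continuousAt_const (show _ < (1 : ℝ) from (add_zero _).trans_lt b),
      c2.eventually_lt continuousAt_const (show _ < (1 : ℝ) from (zero_mul _).trans_lt one_pos)]
      with p x y z
    exact ⟨j, x, y, z⟩
  obtain ⟨δ, a, b⟩ := ((e.filter_mono (nhdsWithin_le_nhds (s := Ioi 0))).and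
    self_mem_nhdsWithin).exists
  exact ⟨δ, b, a⟩

variable [T2Space C]

theorem en_bdd {gs : ℕ → Cy A (Mn n)} {as : ℕ → Fm A (Mn n)} {g : Cy A (Mn n)} {a : Fm A (Mn n)}
    (hs : ∀ k, A.Cc (gs k) ∧ A.Hl (as k)) (hg : A.Cc g) (ha : A.Hl a) (cg : CvC A gs g)
    (ca : CvF A as a) : ∃ E, ∀ k, en A (gs k) (as k) ≤ E := by
  have cv := P275NA.cvF_of (us := fun k i z => nq (A.mtM (gs k) i z) (A.mtM (gs k) i z)
    (tf (as k i z - cn (A.mtM (gs k) i) z))) (ct_en hg ha) fun i z hz => by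
      obtain ⟨c1, c2⟩ := cq_mtM (fun k => (hs k).1) hg cg hz i
      exact c1.nq (P275HK.pd_ne (hg.mtM.pos i z hz)) c1 (cq_tf (Tendsto.sub (ca.cq
        (fun i => (ha i).continuousOn) hz i) c2))
  obtain ⟨E, hE⟩ := (cv.int fun k => ct_en (hs k).1 (hs k).2).bddAbove_range
  exact ⟨E, fun k => hE ⟨k, rfl⟩⟩

/-- the pointwise bound for the Higgs field of a harmonic bundle -/
theorem nq_bd {g g' : Cy A (Mn n)} {a h G a' : Fm A (Mn n)} (hn : 0 < n) (c : Con A l 0 g a)
    (m : A.MtM ∞ g h) (p : PF A a h) (r : Rel A 1 g a h G g' a') (hg : A.Cc g') {δ : ℝ}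
    (d0 : 0 < δ) {i j : Fin A.N} {w : ℂ} (o : w ∈ A.O i j) (d1 : ‖A.tr i j w‖ + δ < 1)
    (d2 : δ * Complex.normSq (A.d i j w) < 1) : nq (h i w) (h i w) (a i w) ≤
      δ⁻¹ * (6 * en A g' a' / volume.real (ball (0 : ℂ) δ)) := by
  have hV : 0 < volume.real (ball (0 : ℂ) δ) :=
    ENNReal.toReal_pos (measure_ball_pos volume _ d0).ne' measure_ball_lt_top.ne
  have q := m.pos j _ (tr_ball o)
  refine (dn_nq (con_hig hn c) m i j w o).trans_le (mul_le_mul ?_ ((le_div_iff₀ hV).2 ((nq_le_int (con_hig hn c) m p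
    (closedBall_subset_ball' ?_) j).trans (eng_rel hn c m r hg))) (P275HK.nq_nonneg q q _)
    (inv_nonneg.2 d0.le))
  · rw [inv_eq_one_div, le_div_iff₀' d0]
    exact d2.le
  · rw [dist_zero_right]
    linarith [A.hR]

/-- **PRP** -/
theorem prp (hn : 0 < n) (hl : A.Cc l) (k : KUR n A l) (q : HSQ A n l) : PRP A n l := by
  intro ys ys' y' H hy
  obtain ⟨r, h1, h2, N, zs, z, hz, -, gz, cg, ca⟩ := exists_reps k hy
  have cz := fun m => cl_ea hl (zs m) (hz m).2
  obtain ⟨E, hE⟩ := en_bdd (fun m => ⟨(cz m).1.cc, (cz m).1.hol⟩) (cl_ea hl z gz).1.cc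
    (cl_ea hl z gz).1.hol cg ca
  obtain ⟨δ, d0, hδ⟩ := ex_in A
  obtain ⟨M, hM⟩ := coeff_nq n (δ⁻¹ * (6 * E / volume.real (ball (0 : ℂ) δ)))
  choose s s1 s2 g g' a h G a' c c' m p R using fun m => (H (m + N)).2.2.2
  obtain ⟨σ, y₀, hσ, t⟩ := q (fun m => ys (m + N)) s s1 s2 g a M
    (fun m => ⟨(H (m + N)).2.1, c m⟩) fun k i w hw => by
      have u1 : 1 < min (s k) r := lt_min (s1 k) h1
      have u2 := min_le_left (s k) r
      have u3 := min_le_right (s k) r
      obtain ⟨ψ, f⟩ := cl_iso ((hz k).1 ▸ cz k) (c' k) u1 u3 u2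
      obtain ⟨j, o, d1, d2⟩ := hδ i w (ball_subset_closedBall hw)
      have b := ball_subset_ball u1.le hw
      have x := rel_comp (rel_mono (R k) u1 u2) f
      have c0 := con_mono (c k).1 u1 u2
      rw [(H (k + N)).1] at x
      rw [(H (k + N)).2.1] at c0
      refine hM _ _ ((m k).pos i w (ball_subset_ball u2 b)) ((nq_bd hn c0 (mtm_mono (m k) u1 u2)
        (fun i w e => p k i w (ball_subset_ball u2 e)) x (con_mono (cz k).1 u1 u3).cc d0
        (res_O.2 ⟨o, b, mem_ball_zero_iff.2 (by linarith)⟩) d1 d2).trans ?_)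
      rw [en_res, ← en_res (h1 := h1) (h2 := h2)]
      exact mul_le_mul_of_nonneg_left (div_le_div_of_nonneg_right (by linarith [hE k])
        measureReal_nonneg) (inv_nonneg.2 d0.le)
  exact ⟨fun m => σ m + N, y₀, fun a b e => Nat.add_lt_add_right (hσ e) N, t⟩

end Vale.Agent.P275NP
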